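import Vale.Agent.P078.CtxB
import Mathlib.Analysis.CStarAlgebra.GelfandDuality

/-! The normaliser and its action on the spectrum. -/

namespace Vale.Agent.P078

open Vale.Agent.P085 Filter
open scoped Topology ComplexConjugate

variable {M X : Type*} [CStarAlgebra M] [TopologicalSpace X] [CompactSpace X]

namespace Ctx

variable (C : Ctx M X)

/-- `v` conjugates the masa into itself on both sides. -/
def QN (v : M) : Prop :=
  ∀ f, (∃ g, star v * C.ι f * v = C.ι g) ∧ ∃ g, v * C.ι f * star v = C.ι g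

/-- The normaliser. -/
def Nor : Subgroup (unitary M) where
  carrier := {u | C.QN u}
  mul_mem' {u v} hu hv f := by
    obtain ⟨⟨a, ha⟩, -⟩ := hu f
    obtain ⟨⟨b, hb⟩, -⟩ := hv a
    obtain ⟨-, c, hc⟩ := hv f
    obtain ⟨-, d, hd⟩ := hu c
    refine ⟨⟨b, ?_⟩, d, ?_⟩
    · rw [← hb, ← ha]
      simp [mul_assoc]
    · rw [← hd, ← hc]
      simp [mul_assoc]
  one_mem' f := ⟨⟨f, by simp⟩, f, by simp⟩
  inv_mem' {u} hu f := by
    obtain ⟨⟨a, ha⟩, b, hb⟩ := hu f
    exact ⟨⟨b, by rw [← hb]; simp [← Unitary.star_eq_inv]⟩, a,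
      by rw [← ha]; simp [← Unitary.star_eq_inv]⟩

/-- The unitary underlying an element of the normaliser. -/
def U (g : C.Nor) : M := (g : unitary M)

lemma U_mem (g : C.Nor) : C.U g ∈ unitary M := (g : unitary M).2

lemma U_mul (g h : C.Nor) : C.U (g * h) = C.U g * C.U h := rfl

lemma U_one : C.U 1 = 1 := rfl

lemma U_inv (g : C.Nor) : C.U g⁻¹ = star (C.U g) := rfl

lemma U_star_mul (g : C.Nor) : star (C.U g) * C.U g = 1 := (C.U_mem g).1

lemma U_mul_star (g : C.Nor) : C.U g * star (C.U g) = 1 := (C.U_mem g).2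

variable [T2Space X]

lemma exists_act (g : C.Nor) :
    ∃ α : C(X, X), ∀ f, star (C.U g) * C.ι f * C.U g = C.ι (f.comp α) := by
  have h : ∀ f, ∃ k, star (C.U g) * C.ι f * C.U g = C.ι k := fun f => (g.2 f).1
  choose φ hφ using h
  let ψ : C(X, ℂ) →⋆ₐ[ℂ] C(X, ℂ) :=
    { toFun := φ
      map_one' := C.inj (by rw [← hφ, map_one, mul_one, U_star_mul])
      map_mul' := fun a b => C.inj (by
        rw [map_mul, ← hφ, ← hφ, ← hφ, map_mul]
        simp only [mul_assoc]
        rw [← mul_assoc (C.U g), U_mul_star, one_mul])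
      map_zero' := C.inj (by rw [← hφ]; simp)
      map_add' := fun a b => C.inj (by
        rw [map_add, ← hφ, ← hφ, ← hφ, map_add, mul_add, add_mul])
      commutes' := fun c => C.inj (by
        rw [← hφ, Algebra.algebraMap_eq_smul_one, map_smul, map_one, mul_smul_comm,
          smul_mul_assoc, mul_one, U_star_mul])
      map_star' := fun a => C.inj (by
        rw [map_star, ← hφ, ← hφ, map_star]
        simp [mul_assoc]) }
  let η := WeakDual.CharacterSpace.homeoEval X ℂ
  refine ⟨⟨fun x => η.symm (WeakDual.CharacterSpace.compContinuousMap ψ (η x)), by fun_prop⟩,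
    fun f => (hφ f).trans (congrArg _ ?_)⟩
  ext x
  have := η.apply_symm_apply (WeakDual.CharacterSpace.compContinuousMap ψ (η x))
  exact (congrArg (fun χ : WeakDual.characterSpace ℂ C(X, ℂ) => χ f) this).symm

/-- The homeomorphism induced by `g`. -/
noncomputable def act (g : C.Nor) : C(X, X) := (C.exists_act g).choose

lemma conj_ι (g : C.Nor) (f : C(X, ℂ)) :
    star (C.U g) * C.ι f * C.U g = C.ι (f.comp (C.act g)) := (C.exists_act g).choose_spec f

lemma eq_of_forall {x y : X} (h : ∀ f : C(X, ℂ), f x = f y) : x = y :=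
  (WeakDual.CharacterSpace.homeoEval X ℂ).injective (WeakDual.CharacterSpace.ext h)

noncomputable instance : MulAction C.Nor X where
  smul g x := C.act g x
  one_smul x := eq_of_forall fun f => by
    have h := C.conj_ι 1 f
    rw [U_one, star_one, one_mul, mul_one] at h
    exact (congrArg (fun k : C(X, ℂ) => k x) (C.inj h)).symm
  mul_smul g h x := eq_of_forall fun f => by
    have e : C.ι (f.comp (C.act (g * h))) = C.ι ((f.comp (C.act g)).comp (C.act h)) := by
      rw [← conj_ι, ← conj_ι, ← conj_ι, U_mul, star_mul]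
      simp only [mul_assoc]
    exact congrArg (fun k : C(X, ℂ) => k x) (C.inj e)

lemma smul_def (g : C.Nor) (x : X) : g • x = C.act g x := rfl

instance : ContinuousConstSMul C.Nor X := ⟨fun g => (C.act g).continuous⟩

lemma ι_mul_U (g : C.Nor) (f : C(X, ℂ)) : C.ι f * C.U g = C.U g * C.ι (f.comp (C.act g)) := by
  rw [← conj_ι, ← mul_assoc, ← mul_assoc, U_mul_star, one_mul]

lemma isClopen_smul (g : C.Nor) {V : Set X} (hV : IsClopen V) : IsClopen ((g • ·) ⁻¹' V) :=
  hV.preimage (continuous_const_smul g)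

lemma ind_comp (g : C.Nor) {V : Set X} (hV : IsClopen V) :
    (ind V).comp (C.act g) = ind ((g • ·) ⁻¹' V) := by
  ext x
  rw [ContinuousMap.comp_apply, ind_apply hV, ind_apply (C.isClopen_smul g hV)]
  rfl

lemma conj_pj (g : C.Nor) {V : Set X} (hV : IsClopen V) :
    star (C.U g) * C.pj V * C.U g = C.pj ((g • ·) ⁻¹' V) := by
  rw [pj, conj_ι, C.ind_comp g hV, pj]

lemma τ_comp (g : C.Nor) (f : C(X, ℂ)) : C.T.τ (C.ι (f.comp (C.act g))) = C.T.τ (C.ι f) := by
  rw [← conj_ι, C.T.comm, ← mul_assoc, U_mul_star, one_mul]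

lemma E_conj (g : C.Nor) (y : M) (x : X) :
    C.E (star (C.U g) * y * C.U g) x = C.E y (g • x) := by
  have : C.E (star (C.U g) * y * C.U g) = (C.E y).comp (C.act g) := by
    refine C.E_eq_of fun f => ?_
    have h := C.conj_ι g⁻¹ f
    rw [U_inv, star_star] at h
    have key : ∀ z, C.T.τ (C.ι f * (star (C.U g) * z * C.U g)) =
        C.T.τ (C.ι (f.comp (C.act g⁻¹)) * z) := fun z => by
      rw [← h, ← mul_assoc, C.T.comm]
      simp only [mul_assoc]
    rw [← conj_ι, key, key, C.tr]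
  rw [this]
  rfl

lemma mul_E_U (g : C.Nor) (f : C(X, ℂ)) :
    f * C.E (C.U g) = C.E (C.U g) * f.comp (C.act g) := by
  rw [← E_mul_left, ι_mul_U, E_mul_right]

/-- `g E(g)^* = |E(g)|^2` is a projection of the masa. -/
lemma U_mul_star_E (g : C.Nor) :
    C.U g * C.ι (star (C.E (C.U g))) = C.ι (C.E (C.U g) * star (C.E (C.U g))) := by
  obtain ⟨k, hk⟩ := C.masa (C.U g * C.ι (star (C.E (C.U g)))) fun f => by
    rw [← mul_assoc, ι_mul_U, mul_assoc, mul_assoc, ← map_mul, ← map_mul]
    congr 2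
    ext x
    have := congrArg (fun k : C(X, ℂ) => conj (k x)) (C.mul_E_U g (star f))
    simpa [mul_comm] using this
  rw [← E_mul_right, ← hk, E_ι]

lemma norm_E_U (g : C.Nor) (x : X) : C.E (C.U g) x = 0 ∨ ‖C.E (C.U g) x‖ = 1 := by
  have h := C.U_mul_star_E g
  have h1 : star (C.U g * C.ι (star (C.E (C.U g)))) * (C.U g * C.ι (star (C.E (C.U g)))) =
      C.ι (C.E (C.U g) * star (C.E (C.U g))) := by
    rw [star_mul, mul_assoc, ← mul_assoc (star (C.U g)), U_star_mul, one_mul, ← map_star,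
      star_star, map_mul]
  rw [h, ← map_star, ← map_mul] at h1
  have h2 := congrArg (fun k : C(X, ℂ) => ‖k x‖) (C.inj h1)
  simp only [ContinuousMap.mul_apply, ContinuousMap.star_apply, norm_mul, norm_star] at h2
  by_cases h0 : C.E (C.U g) x = 0
  · exact Or.inl h0
  · have h3 := norm_pos_iff.2 h0
    have h4 := mul_right_cancel₀ (mul_pos h3 h3).ne' (h2.trans (one_mul _).symm)
    right
    nlinarith

lemma isClopen_E_U (g : C.Nor) : IsClopen {x | C.E (C.U g) x = 0} := by
  refine ⟨isClosed_eq (map_continuous _) continuous_const, ?_⟩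
  have : {x | C.E (C.U g) x = 0} = {x | ‖C.E (C.U g) x‖ < 1} := by
    ext x
    rcases C.norm_E_U g x with h | h
    · simp [h]
    · simp only [Set.mem_ofPred_eq, h, lt_irrefl, iff_false]
      intro h0
      simp [h0] at h
  rw [this]
  exact isOpen_lt (by fun_prop) continuous_const

omit [T2Space X] in
lemma re_τ_pj {V : Set X} : (C.T.τ (C.pj V)).re = C.T.n2 (C.pj V) ^ 2 := by
  rw [C.T.n2_sq, pj_star, pj_idem]

omit [T2Space X] in
lemma eq_empty_of_τ {V : Set X} (hV : IsClopen V) (h : (C.T.τ (C.pj V)).re ≤ 0) : V = ∅ := by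
  rw [re_τ_pj] at h
  exact C.pj_eq_zero hV (C.fw.faithful _ (pow_eq_zero_iff two_ne_zero |>.1
    (le_antisymm h (sq_nonneg _))))

/-- A maximal clopen set disjoint from its translate. -/
lemma exists_max_free (g : C.Nor) : ∃ V : Set X, IsClopen V ∧ (∀ y ∈ V, g • y ∉ V) ∧
    ∀ W, IsClopen W → Disjoint V W → (∀ y ∈ V ∪ W, g • y ∉ V ∪ W) → W = ∅ := by
  let S := {V : Set X // IsClopen V ∧ ∀ y ∈ V, g • y ∉ V}
  let t : Set X → ℝ := fun V => (C.T.τ (C.pj V)).re
  have step : ∀ (n : ℕ) (V : S), ∃ V' : S, V.1 ⊆ V'.1 ∧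
      ∀ W : S, V.1 ⊆ W.1 → t W.1 ≤ t V'.1 + 1 / (n + 1) := by
    intro n V
    have hb : BddAbove ((fun W : S => t W.1) '' {W | V.1 ⊆ W.1}) := by
      refine ⟨1, ?_⟩
      rintro _ ⟨W, -, rfl⟩
      exact (Complex.re_le_norm _).trans ((C.T.norm_τ_le _).trans (C.pj_proj _).norm_le)
    obtain ⟨_, ⟨V', h1, rfl⟩, h2⟩ := exists_lt_of_lt_csSup (⟨_, V, Set.Subset.rfl, rfl⟩ :
      ((fun W : S => t W.1) '' {W | V.1 ⊆ W.1}).Nonempty)
      (sub_lt_self _ (Nat.one_div_pos_of_nat (n := n)))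
    exact ⟨V', h1, fun W hW => by linarith [le_csSup hb ⟨W, hW, rfl⟩]⟩
  choose next h1 h2 using step
  let s : ℕ → S := fun n => Nat.rec ⟨∅, isClopen_empty, by simp⟩ next n
  obtain ⟨V, hV, hs, ht⟩ := C.exists_lim_clopen (U := fun n => (s n).1) (fun n => (s n).2.1)
    (monotone_nat_of_le_succ fun n => h1 n (s n))
  refine ⟨V, hV, fun y hy hy' => ?_, fun W hW hd h => C.eq_empty_of_τ hW ?_⟩
  · have hD := hV.inter (C.isClopen_smul g hV)
    refine (C.eq_empty_of_τ hD ?_).subset ⟨hy, hy'⟩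
    have h3 := (ht.const_sub (t V)).const_mul 2
    rw [sub_self, mul_zero] at h3
    refine ge_of_tendsto' h3 fun n => ?_
    have h4 := C.re_τ_mono (f := ind (V ∩ (g • ·) ⁻¹' V))
      (g := (ind V - ind (s n).1) + (ind V - ind (s n).1).comp (C.act g)) fun x => by
        simp only [ContinuousMap.add_apply, ContinuousMap.sub_apply, ContinuousMap.comp_apply,
          ind_apply hD, ind_apply hV, ind_apply (s n).2.1, ← smul_def]
        have a := @hs n x
        have b := @hs n (g • x)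
        have c := (s n).2.2 x
        by_cases p1 : x ∈ V <;> by_cases p2 : g • x ∈ V <;> by_cases p3 : x ∈ (s n).1 <;>
          by_cases p4 : g • x ∈ (s n).1 <;> simp_all
    rw [map_add, map_add, τ_comp, map_sub, map_sub, Complex.add_re, Complex.sub_re] at h4
    simp only [t, pj] at h4 ⊢
    linarith
  · have h3 := ((ht.comp (tendsto_add_atTop_nat 1)).add
      tendsto_one_div_add_atTop_nhds_zero_nat).sub_const (t V)
    rw [add_zero, sub_self] at h3
    refine ge_of_tendsto' h3 fun n => ?_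
    have h4 := h2 n (s n) ⟨V ∪ W, hV.union hW, h⟩ ((hs n).trans Set.subset_union_left)
    simp only [t, C.pj_union hV hW hd, map_add, Complex.add_re] at h4
    exact le_sub_iff_add_le'.2 h4

lemma exists_not_fixed (g : C.Nor) {W : Set X} (hW : IsClopen W) (h : ∀ x ∈ W, C.E (C.U g) x = 0)
    (hf : ∀ x ∈ W, g • x = x) : W = ∅ := by
  obtain ⟨k, hk⟩ := C.masa (C.U g * C.pj W) fun f => by
    rw [← mul_assoc, ι_mul_U, mul_assoc, mul_assoc, pj, ← map_mul, ← map_mul]
    congr 2
    ext x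
    by_cases hx : x ∈ W
    · simp [← smul_def, hf x hx, mul_comm]
    · simp [ind_of_notMem hW hx]
  have h1 : k = 0 := by
    rw [← C.E_ι k, hk, pj, E_mul_right]
    ext x
    by_cases hx : x ∈ W
    · simp [h x hx]
    · simp [ind_of_notMem hW hx]
  refine C.pj_eq_zero hW ?_
  rw [← one_mul (C.pj W), ← C.U_star_mul g, mul_assoc, ← hk, h1, map_zero, mul_zero]

/-- Frolík type theorem: fixed points are exactly the support of the expectation. -/
theorem smul_eq_iff (g : C.Nor) (x : X) : g • x = x ↔ C.E (C.U g) x ≠ 0 := by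
  refine ⟨fun hx h0 => ?_, fun h => eq_of_forall fun f => ?_⟩
  · obtain ⟨V, hV, h1, h2⟩ := C.exists_max_free g
    have hx' : g⁻¹ • x = x := inv_smul_eq_iff.2 hx.symm
    have hxV : x ∉ V := fun h => h1 x h (by rwa [hx])
    set W := {x | C.E (C.U g) x = 0} ∩ (V ∪ (g • ·) ⁻¹' V ∪ (g⁻¹ • ·) ⁻¹' V)ᶜ with hWd
    have hW : IsClopen W := (C.isClopen_E_U g).inter
      ((hV.union (C.isClopen_smul g hV)).union (C.isClopen_smul g⁻¹ hV)).compl
    have hxW : x ∈ W := ⟨h0, by simp [hx, hx', hxV]⟩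
    refine (C.exists_not_fixed g hW (fun y hy => hy.1) fun y hy => ?_).subset hxW
    by_contra hne
    have := C.totallyDisconnected
    obtain ⟨A, hA, hyA, hgA⟩ := exists_isClopen_of_totally_separated (Ne.symm hne)
    have hm : ∀ z ∈ W, z ∉ V ∧ g • z ∉ V ∧ g⁻¹ • z ∉ V := fun z hz => by
      simpa [and_assoc] using hz.2
    refine (h2 (W ∩ (A ∩ (g • ·) ⁻¹' Aᶜ)) (hW.inter (hA.inter (C.isClopen_smul g hA.compl)))
      (Set.disjoint_left.2 fun z hz hz' => (hm z hz'.1).1 hz) ?_).subset ⟨hy, hyA, hgA⟩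
    rintro z (hz | hz) (hz' | hz')
    · exact h1 z hz hz'
    · exact (hm _ hz'.1).2.2 (by rwa [inv_smul_smul])
    · exact (hm _ hz.1).2.1 hz'
    · exact hz.2.2 hz'.2.1
  · have := congrArg (fun k : C(X, ℂ) => k x) (C.mul_E_U g f)
    simp only [ContinuousMap.mul_apply, ContinuousMap.comp_apply] at this
    rw [mul_comm] at this
    exact (mul_left_cancel₀ h this).symm

lemma isOpen_fix (g : C.Nor) : IsOpen {x : X | g • x = x} := by
  simp only [C.smul_eq_iff]
  exact isOpen_ne_fun (map_continuous _) continuous_const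

lemma E_mul_U {g : C.Nor} {x : X} (h : g • x = x) (y : M) :
    C.E (y * C.U g) x = C.E y x * C.E (C.U g) x := by
  have h1 := (C.norm_E_U g x).resolve_left ((C.smul_eq_iff g x).1 h)
  have h2 : C.E (y * C.U g) * star (C.E (C.U g)) =
      C.E y * (C.E (C.U g) * star (C.E (C.U g))) := by
    rw [← E_mul_right, mul_assoc, U_mul_star_E, E_mul_right]
  have h3 := congrArg (fun k : C(X, ℂ) => k x) h2
  simp only [ContinuousMap.mul_apply, ContinuousMap.star_apply] at h3
  rw [← mul_assoc] at h3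
  refine mul_right_cancel₀ (fun h0 => ?_) h3
  rw [star_eq_zero.1 h0] at h1
  simp at h1

lemma E_star_U_mul {g : C.Nor} {x : X} (h : g • x = x) (y : M) :
    C.E (star (C.U g) * y) x = conj (C.E (C.U g) x) * C.E y x := by
  have h1 : star (C.U g) * y = star (star y * C.U g) := by rw [star_mul, star_star]
  rw [h1, E_star, ContinuousMap.star_apply, C.E_mul_U h, E_star]
  simp [mul_comm]

end Ctx

end Vale.Agent.P078
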