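import Vale.Agent.P078.Act

/-! The normaliser algebra. -/

namespace Vale.Agent.P078

open Vale.Agent.P085 Filter
open scoped Topology ComplexConjugate

variable {M X : Type*} [CStarAlgebra M] [TopologicalSpace X] [CompactSpace X] [T2Space X]

namespace Ctx

variable (C : Ctx M X)

/-- Finite sums of masa elements times normalisers. -/
def Rep (y : M) : Prop :=
  ∃ (Γ : Finset C.Nor) (f : C.Nor → C(X, ℂ)), y = ∑ g ∈ Γ, C.ι (f g) * C.U g

omit [T2Space X] in
lemma rep_single (f : C(X, ℂ)) (g : C.Nor) : C.Rep (C.ι f * C.U g) :=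
  ⟨{g}, fun _ => f, by simp⟩

omit [T2Space X] in
lemma rep_add {a b : M} (ha : C.Rep a) (hb : C.Rep b) : C.Rep (a + b) := by
  classical
  obtain ⟨Γ, f, rfl⟩ := ha
  obtain ⟨Γ', f', rfl⟩ := hb
  refine ⟨Γ ∪ Γ', fun g => (if g ∈ Γ then f g else 0) + if g ∈ Γ' then f' g else 0, ?_⟩
  simp only [map_add, add_mul, Finset.sum_add_distrib, apply_ite C.ι, map_zero, ite_mul, zero_mul,
    Finset.sum_ite_mem, Finset.union_inter_cancel_left, Finset.union_inter_cancel_right]

omit [T2Space X] in
lemma rep_sum {κ : Type*} (s : Finset κ) {a : κ → M} (h : ∀ k ∈ s, C.Rep (a k)) :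
    C.Rep (∑ k ∈ s, a k) :=
  Finset.sum_induction a C.Rep (fun _ _ => C.rep_add) ⟨∅, 0, by simp⟩ h

lemma U_mul_ι (g : C.Nor) (f : C(X, ℂ)) :
    C.U g * C.ι f = C.ι (f.comp (C.act g⁻¹)) * C.U g := by
  rw [← C.conj_ι, U_inv, star_star, mul_assoc, (C.U_mem g).1, mul_one]

/-- The algebraic span of the masa and the normaliser. -/
def N0 : StarSubalgebra ℂ M where
  carrier := {y | ∃ (Γ : Finset C.Nor) (f : C.Nor → C(X, ℂ)), y = ∑ g ∈ Γ, C.ι (f g) * C.U g}
  mul_mem' := by
    rintro _ _ ⟨Γ, f, rfl⟩ ⟨Γ', f', rfl⟩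
    rw [Finset.sum_mul_sum]
    refine C.rep_sum _ fun g _ => C.rep_sum _ fun h _ => ?_
    rw [mul_assoc, ← mul_assoc (C.U g), U_mul_ι, mul_assoc, ← U_mul, ← mul_assoc, ← map_mul]
    exact C.rep_single _ _
  add_mem' := C.rep_add
  algebraMap_mem' := fun c => by
    have := C.rep_single (algebraMap ℂ _ c) 1
    rwa [U_one, mul_one, AlgHomClass.commutes] at this
  star_mem' := by
    rintro _ ⟨Γ, f, rfl⟩
    rw [star_sum]
    refine C.rep_sum _ fun g _ => ?_
    rw [star_mul, ← U_inv, ← map_star, U_mul_ι]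
    exact C.rep_single _ _

lemma ι_mem_N0 (f : C(X, ℂ)) : C.ι f ∈ C.N0 := by
  have := C.rep_single f 1
  rwa [U_one, mul_one] at this

lemma U_mem_N0 (g : C.Nor) : C.U g ∈ C.N0 := by
  have := C.rep_single 1 g
  rwa [map_one, one_mul] at this

variable {C}

omit [T2Space X] in
lemma QN.bimod {v : M} (hv : C.QN v) (a b : C(X, ℂ)) : C.QN (C.ι a * v * C.ι b) := fun f => by
  obtain ⟨g, hg⟩ := (hv (star a * f * a)).1
  obtain ⟨g', hg'⟩ := (hv (b * f * star b)).2
  refine ⟨⟨star b * g * b, ?_⟩, a * g' * star a, ?_⟩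
  · rw [map_mul, map_mul, ← hg]
    simp only [star_mul, map_mul, map_star, mul_assoc]
  · rw [map_mul, map_mul, ← hg']
    simp only [star_mul, map_mul, map_star, mul_assoc]

lemma QN.mem_of_nil {t : M} (ht : C.QN t) (h1 : t * star t * t = t) (h2 : t * t = 0) :
    t ∈ C.N0 := by
  obtain ⟨⟨p, hp⟩, r, hr⟩ := ht 1
  rw [map_one, mul_one] at hp hr
  have h1' : star t * t * star t = star t := by simpa [mul_assoc] using congrArg star h1
  have h2' : star t * star t = 0 := by simpa using congrArg star h2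
  set z := C.ι (1 - p - r) with hz
  have hz' : z = 1 - star t * t - t * star t := by rw [hz, map_sub, map_sub, map_one, hp, hr]
  have e1 : t * z = 0 := by
    rw [hz', mul_sub, mul_sub, mul_one, ← mul_assoc, h1, ← mul_assoc, h2, zero_mul, sub_self,
      sub_zero]
  have e2 : z * t = 0 := by
    rw [hz', sub_mul, sub_mul, one_mul, h1, mul_assoc, h2, mul_zero, sub_zero, sub_self]
  have hzs : star z = z := by rw [hz']; simp
  have e3 : star t * z = 0 := by simpa [hzs] using congrArg star e2
  have e4 : z * star t = 0 := by simpa [hzs] using congrArg star e1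
  have e5 : ∀ f, t * C.ι f * t = 0 := fun f => by
    have : t * C.ι f = t * C.ι f * (star t * t) := by
      rw [hp, mul_assoc, C.ι_comm, ← mul_assoc, ← hp, ← mul_assoc, h1]
    rw [this, mul_assoc, mul_assoc (star t), h2, mul_zero, mul_zero]
  have e6 : ∀ f, star t * C.ι f * star t = 0 := fun f => by
    simpa [mul_assoc, ← map_star] using congrArg star (e5 (star f))
  have key : ∀ f, (t + star t + z) * C.ι f * (t + star t + z) =
      t * C.ι f * star t + star t * C.ι f * t + z * C.ι f * z := fun f => by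
    have a1 : z * C.ι f = C.ι f * z := C.ι_comm _ _
    have a2 : t * C.ι f * z = 0 := by rw [mul_assoc, ← a1, ← mul_assoc, e1, zero_mul]
    have a3 : star t * C.ι f * z = 0 := by rw [mul_assoc, ← a1, ← mul_assoc, e3, zero_mul]
    have a4 : z * C.ι f * t = 0 := by rw [a1, mul_assoc, e2, mul_zero]
    have a5 : z * C.ι f * star t = 0 := by rw [a1, mul_assoc, e4, mul_zero]
    simp only [add_mul, mul_add, a2, a3, a4, a5, e5, e6, zero_add, add_zero]
    abel
  have hs : star (t + star t + z) = t + star t + z := by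
    rw [star_add, star_add, star_star, hzs, add_comm (star t)]
  have hzz : z * z = z := by
    nth_rewrite 2 [hz']
    rw [mul_sub, mul_sub, mul_one, ← mul_assoc, ← mul_assoc, e2, e4, zero_mul, zero_mul, sub_zero,
      sub_zero]
  have hu : (t + star t + z) * (t + star t + z) = 1 := by
    have := key 1
    rw [map_one, mul_one, mul_one, mul_one, mul_one, hzz] at this
    rw [this, hz']
    abel
  have hq : C.QN (t + star t + z) := fun f => by
    obtain ⟨⟨g, hg⟩, g', hg'⟩ := ht f
    have : (t + star t + z) * C.ι f * (t + star t + z) =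
        C.ι (g' + g + (1 - p - r) * f * (1 - p - r)) := by
      rw [key, hg, hg', map_add, map_add, map_mul, map_mul]
    rw [hs]
    exact ⟨⟨_, this⟩, _, this⟩
  have h3 : t = (t + star t + z) * C.ι p := by
    rw [← hp, add_mul, add_mul, ← mul_assoc, h1, ← mul_assoc, h2', ← mul_assoc, e4, zero_mul,
      add_zero, add_zero]
  rw [h3]
  exact mul_mem (C.U_mem_N0 ⟨⟨_, by rw [hs]; exact hu, by rw [hs]; exact hu⟩, hq⟩) (C.ι_mem_N0 p)

lemma QN.mem_of_pi {v : M} (hv : C.QN v) (h1 : v * star v * v = v) : v ∈ cl C.T C.N0 := by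
  classical
  intro ε hε
  obtain ⟨P, hP⟩ := C.pinch_tendsto v hε
  set e : P → M := fun i => C.pj (P.proj ⁻¹' {i}) with he
  have hc : ∀ i : P, IsClopen (P.proj ⁻¹' {i}) := fun i => P.isClopen_preimage _
  have h2 : ∑ i, e i = 1 := by
    rw [he, C.sum_pj P.proj_isLocallyConstant, Finset.coe_univ, Set.preimage_univ, pj_univ]
  have h3 : v = ∑ i, (e i * v * e i + ∑ j ∈ Finset.univ.erase i, e i * v * e j) := by
    rw [Finset.sum_congr rfl fun i _ =>
      Finset.add_sum_erase _ (fun j => e i * v * e j) (Finset.mem_univ i)]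
    simp only [← Finset.mul_sum, ← Finset.sum_mul, h2, mul_one, one_mul]
  rw [Finset.sum_add_distrib] at h3
  refine ⟨C.ι (C.E v) + ∑ i, ∑ j ∈ Finset.univ.erase i, e i * v * e j,
    add_mem (C.ι_mem_N0 _) (sum_mem fun i _ => sum_mem fun j hj => ?_), ?_⟩
  · have hi : e i * e i = e i := (C.pj_proj _).isIdempotentElem
    have hj' : e j * e j = e j := (C.pj_proj _).isIdempotentElem
    have si : star (e i) = e i := (C.pj_proj _).isSelfAdjoint
    have sj : star (e j) = e j := (C.pj_proj _).isSelfAdjoint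
    have hij : e j * e i = 0 := by
      rw [he, C.pj_mul (hc j) (hc i), ← Set.preimage_inter,
        Set.singleton_inter_eq_empty.2 (by simpa using Finset.ne_of_mem_erase hj),
        Set.preimage_empty, pj_empty]
    refine (hv.bimod _ _).mem_of_nil ?_ ?_
    · obtain ⟨g, hg⟩ := (hv (ind (P.proj ⁻¹' {i}))).1
      obtain ⟨r, hr⟩ := (hv 1).2
      rw [map_one, mul_one] at hr
      have a1 : e j * (star v * e i * v) = star v * e i * v * e j := by
        change e j * (star v * C.ι _ * v) = star v * C.ι _ * v * e j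
        rw [hg]; exact C.ι_comm _ _
      have a2 : v * star v * e i = e i * (v * star v) := by rw [hr]; exact C.ι_comm _ _
      change e i * v * e j * star (e i * v * e j) * (e i * v * e j) = e i * v * e j
      calc e i * v * e j * star (e i * v * e j) * (e i * v * e j)
          = e i * v * (e j * e j * (star v * (e i * e i) * v)) * e j := by
            simp only [star_mul, si, sj, mul_assoc]
        _ = e i * (v * star v * e i) * v * (e j * e j) := by
            rw [hi, hj', a1]; simp only [mul_assoc, hj']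
        _ = e i * v * e j := by
            rw [a2, hj', ← mul_assoc, hi, mul_assoc (e i), h1]
    · change e i * v * e j * (e i * v * e j) = 0
      rw [mul_assoc (e i) v (e j), mul_assoc (e i) (v * e j), mul_assoc v, ← mul_assoc (e j),
        hij, zero_mul, mul_zero, mul_zero]
  · have h4 := hP P le_rfl
    rwa [show v - (C.ι (C.E v) + ∑ i, ∑ j ∈ Finset.univ.erase i, e i * v * e j) =
      C.pinch P.proj v - C.ι (C.E v) by
        nth_rewrite 1 [h3]
        rw [add_sub_add_right_eq_sub]; rfl]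

variable (C)

theorem QN.mem_cl {v : M} (hv : C.QN v) : v ∈ cl C.T C.N0 := by
  refine mem_cl_of_approx fun ε hε => ?_
  obtain ⟨h, hh⟩ := (hv 1).1
  rw [map_one, mul_one] at hh
  have h0 : ∀ x, 0 ≤ (h x).re ∧ (h x).im = 0 := fun x => by
    have := C.E_nonneg v x
    rwa [hh, C.E_ι] at this
  set δ := (ε / 2) ^ 2 with hδ
  have hδ0 : 0 < δ := by positivity
  set U := closure {x | 0 < (⟨fun x => (h x).re - δ, by fun_prop⟩ : C(X, ℝ)) x} with hU
  have hUc : IsClopen U := C.isClopen_closure _
  have h1 : U ⊆ {x | δ ≤ (h x).re} :=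
    closure_minimal (fun x (hx : 0 < (h x).re - δ) => le_of_lt (sub_pos.1 hx))
      (isClosed_le continuous_const (by fun_prop))
  have h2 : ∀ x ∉ U, (h x).re ≤ δ := fun x hx => not_lt.1 fun hlt =>
    hx (subset_closure (show 0 < (h x).re - δ from sub_pos.2 hlt))
  have hpos : ∀ x, 0 < √(max (h x).re δ) := fun x => Real.sqrt_pos.2 (lt_max_of_lt_right hδ0)
  set a : C(X, ℂ) := ⟨fun x => (√(max (h x).re δ) : ℝ), by fun_prop⟩ with ha
  set b : C(X, ℂ) := ⟨fun x => ((√(max (h x).re δ))⁻¹ : ℝ), Complex.continuous_ofReal.comp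
    (Continuous.inv₀ (by fun_prop) fun x => (hpos x).ne')⟩ with hb
  have e1 : star (b * ind U) * h * (b * ind U) = ind U := by
    ext x
    by_cases hx : x ∈ U
    · have e2 : h x = ((√(max (h x).re δ) * √(max (h x).re δ) : ℝ) : ℂ) := by
        rw [Real.mul_self_sqrt (le_max_of_le_right hδ0.le), max_eq_left (h1 hx)]
        exact Complex.ext rfl (h0 x).2
      have e3 : ((√(max (h x).re δ) : ℝ) : ℂ) ≠ 0 := Complex.ofReal_ne_zero.2 (hpos x).ne'
      simp only [ContinuousMap.mul_apply, ContinuousMap.star_apply, ind_apply hUc,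
        Set.indicator_of_mem hx, Pi.one_apply, mul_one, hb, ContinuousMap.coe_mk,
        Complex.star_def, Complex.conj_ofReal]
      nth_rewrite 2 [e2]
      push_cast
      field_simp
    · simp [ind_apply hUc, Set.indicator_of_notMem hx]
  have e2 : b * ind U * a = ind U := by
    ext x
    have e3 : ((√(max (h x).re δ) : ℝ) : ℂ) ≠ 0 := Complex.ofReal_ne_zero.2 (hpos x).ne'
    simp only [ContinuousMap.mul_apply, hb, ha, ContinuousMap.coe_mk]
    push_cast
    field_simp
  have e3 : b * ind U * ind U = b * ind U := by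
    ext x
    by_cases hx : x ∈ U <;> simp [ind_apply hUc, hx]
  have hq := hv.bimod 1 (b * ind U)
  rw [map_one, one_mul] at hq
  have h3 := hq.mem_of_pi (by
    rw [mul_assoc, star_mul, ← map_star, mul_assoc (C.ι _), ← mul_assoc (star v), hh, ← mul_assoc,
      ← mul_assoc, mul_assoc v, mul_assoc v, mul_assoc v, mul_assoc (C.ι _), mul_assoc (C.ι _),
      ← map_mul, ← map_mul, e1, ← map_mul, e3])
  refine ⟨v * C.ι (b * ind U) * C.ι a, mul_mem h3 (le_cl (C.ι_mem_N0 a)), ?_⟩
  have h4 : v - v * C.ι (b * ind U) * C.ι a = v * C.ι (1 - ind U) := by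
    rw [mul_assoc, ← map_mul, e2, map_sub, map_one, mul_sub, mul_one]
  have h5 : C.T.n2 (v * C.ι (1 - ind U)) ^ 2 ≤ δ := by
    rw [C.T.n2_sq, star_mul, ← map_star, mul_assoc, ← mul_assoc (star v), hh, ← map_mul,
      ← map_mul]
    refine (C.re_τ_mono (g := algebraMap ℂ _ (δ : ℂ)) fun x => ?_).trans_eq ?_
    · by_cases hx : x ∈ U
      · simp [ind_apply hUc, hx, hδ0.le]
      · simpa [ind_apply hUc, hx] using h2 x hx
    · rw [AlgHomClass.commutes, Algebra.algebraMap_eq_smul_one, map_smul, C.T.one, smul_eq_mul,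
        mul_one, Complex.ofReal_re]
  rw [h4]
  exact (abs_le_of_sq_le_sq' h5 (by positivity)).2.trans_lt (half_lt_self hε)

end Ctx

end Vale.Agent.P078
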